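import Crest.Agent.R114.QLemA

/-!
# Task R114-QHil (a Cantor family gives an ℓ² quotient)

`khin`: L¹ Khintchine for Rademacher sums over `Fin n → Bool` with real coefficients: `E S² = ∑ a²`, `E S⁴ ≤ 3 (∑ a²)²`
(induction on `n`, or `Crest.Agent.Lib.BiasFourier`), Hölder `E S² ≤ (E|S|)^{2/3} (E S⁴)^{1/3}` (elementary: for
`σ² = ∑ a²`, `|S| ≥ (S²·α - S⁴·β)` pointwise with a good choice, e.g. `|s| ≥ s²/(σ) * 1 - s⁴/(σ³) * (4/27)`-type inequality,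
or Cauchy–Schwarz twice).  Any positive absolute constant is fine: only `∃ κ > 0` is stated.

`sq_of_cantor`.  `ext b : ℕ → Bool` extends `b : Fin N → Bool` by `false`.
`ρ N j x = 2^{-N} ∑_{b : Fin N → Bool} sg (ext b j) * θ (ext b) x`; Bessel: `∑_{j<N} ‖ρ N j x‖² ≤ ‖x‖²`
(orthonormality of the Rademachers `j < N`).  `ρ j x = lim_{N → hyperfilter} ρ N j x` (bounded sequence in `𝕜`), linear,
`∑_{j∈F} ‖ρ j x‖² ≤ ‖x‖²`.  For `a` supported in `range n` let `S b = ∑_j a_j sg (b j)`; `E‖S‖ ≤ E|re S| + E|im S|`; take the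
larger, say `re`, and `f = (0 ≤ re S)`; with `x` from `Cantor`, for all `N ≥ n`
`‖∑ a_j ρ N j x‖ = ‖E[θ x * S]‖ ≥ d E|re S| - (d/4) E‖S‖ ≥ (d/4) E‖S‖ ≥ (d/4) κ' ‖a‖₂`
(`E‖S‖ ≥ max (E|re S|) (E|im S|) ≥ κ max ‖re a‖₂ ‖im a‖₂ ≥ κ‖a‖₂/2`; averages over `Fin N → Bool` of functions of the
first `n` coordinates equal averages over `Fin n → Bool`, or simply run Khintchine on `Fin N` with `a` extended by zero
and choose `f` through the restriction).  So `‖∑ a_j • ρ j‖ ≥ c ‖a‖₂`.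
`T : X →L lp (fun _ : ℕ => 𝕜) 2`, `T x = (ρ j x)_j`, `‖T‖ ≤ 1`.  For `g` in the dual of `ℓ²` (Riesz,
`InnerProductSpace.toDual`), approximate by finitely supported vectors (`lp.hasSum_single`): `c ‖g‖ ≤ ‖g ∘ T‖`.
`surj_of_dual` ⇒ `T` onto; `M = ker T`, `X ⧸ M ≃L ℓ²` (`LinearMap.quotKerEquivOfSurjective`, continuity of the inverse
from the norm bound in `surj_of_dual`); ℓ² is separable (`Crest/Agent/R194/Hil.lean`, `separable_lp`) and infinite-dimensional.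
Alternative ending: vectors with finitely many nonzero `ρ j x` are dense, then `lemA` with `h j = j • ρ j`.
-/

set_option autoImplicit false

namespace Crest.Agent.R114

open Filter

variable {𝕜 : Type} [RCLike 𝕜] {X : Type*} [NormedAddCommGroup X] [NormedSpace 𝕜 X]

namespace Hil

open Finset Topology

theorem sum_succ {n : ℕ} (a : Fin (n + 1) → ℝ) (g : ℝ → ℝ) :
    ∑ b : Fin (n + 1) → Bool, g (∑ j, a j * sg ℝ (b j)) = ∑ b : Fin n → Bool,
      (g (a 0 + ∑ j, a j.succ * sg ℝ (b j)) + g (-a 0 + ∑ j, a j.succ * sg ℝ (b j))) := by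
  rw [← (Fin.consEquiv fun _ => Bool).sum_comp, Fintype.sum_prod_type, Fintype.sum_bool,
    ← sum_add_distrib]
  simp [Fin.sum_univ_succ, sg, Fin.consEquiv]

theorem mom (n : ℕ) (a : Fin n → ℝ) :
    ∑ b : Fin n → Bool, (∑ j, a j * sg ℝ (b j)) ^ 2 = 2 ^ n * ∑ j, a j ^ 2 ∧
    ∑ b : Fin n → Bool, (∑ j, a j * sg ℝ (b j)) ^ 4 ≤ 3 * 2 ^ n * (∑ j, a j ^ 2) ^ 2 := by
  induction n with
  | zero => simp
  | succ n ih =>
    obtain ⟨h1, h2⟩ := ih fun j => a j.succ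
    rw [sum_succ a (· ^ 2), sum_succ a (· ^ 4), Fin.sum_univ_succ, pow_succ (2 : ℝ) n]
    have e1 : ∀ s : ℝ, (a 0 + s) ^ 2 + (-a 0 + s) ^ 2 = 2 * a 0 ^ 2 + 2 * s ^ 2 := fun s => by ring
    have e2 : ∀ s : ℝ, (a 0 + s) ^ 4 + (-a 0 + s) ^ 4 = 2 * a 0 ^ 4 + 12 * a 0 ^ 2 * s ^ 2 + 2 * s ^ 4 :=
      fun s => by ring
    simp only [e1, e2, sum_add_distrib, ← mul_sum, h1, sum_const, card_univ, Fintype.card_fun,
      Fintype.card_bool, Fintype.card_fin, nsmul_eq_mul, Nat.cast_pow, Nat.cast_ofNat]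
    refine ⟨by ring, ?_⟩
    have : 0 ≤ (2 : ℝ) ^ n * a 0 ^ 4 := by positivity
    nlinarith

end Hil

theorem khin : ∃ κ : ℝ, 0 < κ ∧ ∀ (n : ℕ) (a : Fin n → ℝ),
    κ * Real.sqrt (∑ j, a j ^ 2) ≤
      (∑ b : Fin n → Bool, |∑ j, a j * sg ℝ (b j)|) / 2 ^ n := by
  refine ⟨1 / 4, by norm_num, fun n a => ?_⟩
  obtain ⟨h1, h2⟩ := Hil.mom n a
  obtain ⟨σ, hσ, e⟩ : ∃ σ, 0 ≤ σ ∧ ∑ j, a j ^ 2 = σ ^ 2 :=
    ⟨_, Real.sqrt_nonneg _, (Real.sq_sqrt (by positivity)).symm⟩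
  rw [e] at h1 h2 ⊢
  rw [Real.sqrt_sq hσ, le_div_iff₀ (by positivity)]
  rcases hσ.eq_or_lt with rfl | hσ
  · simp only [mul_zero, zero_mul]; positivity
  have key : ∀ s : ℝ, σ ^ 2 / 2 * s ^ 2 - s ^ 4 / 12 ≤ σ ^ 3 * |s| := fun s => by
    rw [← sq_abs s, ← Even.pow_abs (by decide : Even 4) s]
    have h := abs_nonneg s
    generalize |s| = t at *
    have : 0 ≤ σ ^ 3 - σ ^ 2 / 2 * t + t ^ 3 / 12 := by
      nlinarith [mul_nonneg h (sq_nonneg (t - 2 * σ)), mul_nonneg hσ.le (sq_nonneg (t - 3 / 2 * σ)),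
        pow_pos hσ 3]
    nlinarith [mul_nonneg h this]
  have := Finset.sum_le_sum fun (b : Fin n → Bool) (_ : b ∈ Finset.univ) => key (∑ j, a j * sg ℝ (b j))
  rw [Finset.sum_sub_distrib, ← Finset.mul_sum, ← Finset.mul_sum, ← Finset.sum_div, h1] at this
  refine le_of_mul_le_mul_left ?_ (pow_pos hσ 3)
  nlinarith

namespace Hil

open Finset Topology

/-- extension by `false` -/
def ex {N : ℕ} (b : Fin N → Bool) (j : ℕ) : Bool := if h : j < N then b ⟨j, h⟩ else false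

/-- Rademacher sums -/
noncomputable def SS (F : Finset ℕ) (a : ℕ → 𝕜) (b : ℕ → Bool) : 𝕜 := ∑ j ∈ F, a j * sg 𝕜 (b j)

theorem sum_fin {N : ℕ} {F : Finset ℕ} (hF : F ⊆ range N) (g : ℕ → ℝ) :
    ∑ j : Fin N, (if (j : ℕ) ∈ F then g j else 0) = ∑ j ∈ F, g j := by
  rw [Fin.sum_univ_eq_sum_range (fun j => if j ∈ F then g j else 0), sum_ite_mem, inter_eq_right.2 hF]

theorem SS_fin {N : ℕ} {F : Finset ℕ} (hF : F ⊆ range N) (a : ℕ → ℝ) (b : Fin N → Bool) :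
    ∑ j : Fin N, (if (j : ℕ) ∈ F then a j else 0) * sg ℝ (b j) = SS F a (ex b) := by
  rw [SS, ← sum_fin hF]
  exact sum_congr rfl fun j _ => by simp [ex]

theorem re_SS (F : Finset ℕ) (a : ℕ → 𝕜) (b : ℕ → Bool) :
    RCLike.re (SS F a b) = SS F (fun j => RCLike.re (a j)) b := by
  simp only [SS, map_sum]
  exact sum_congr rfl fun j _ => by cases b j <;> simp [sg]

theorem im_SS (F : Finset ℕ) (a : ℕ → 𝕜) (b : ℕ → Bool) :
    RCLike.im (SS F a b) = SS F (fun j => RCLike.im (a j)) b := by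
  simp only [SS, map_sum]
  exact sum_congr rfl fun j _ => by cases b j <;> simp [sg]

theorem norm_sq (z : 𝕜) : ‖z‖ ^ 2 = RCLike.re z ^ 2 + RCLike.im z ^ 2 := by
  rw [RCLike.norm_sq_eq_def]; ring

theorem sum_norm_SS {N : ℕ} {F : Finset ℕ} (hF : F ⊆ range N) (a : ℕ → 𝕜) :
    ∑ b : Fin N → Bool, ‖SS F a (ex b)‖ ≤ 2 ^ N * √(∑ j ∈ F, ‖a j‖ ^ 2) := by
  have h : ∀ a : ℕ → ℝ, ∑ b : Fin N → Bool, SS F a (ex b) ^ 2 = 2 ^ N * ∑ j ∈ F, a j ^ 2 := by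
    intro a
    simpa only [SS_fin hF, ite_pow, zero_pow two_ne_zero, sum_fin hF (fun j => a j ^ 2)] using
      (mom N fun j => if (j : ℕ) ∈ F then a j else 0).1
  refine le_of_sq_le_sq ?_ (by positivity)
  refine sq_sum_le_card_mul_sum_sq.trans_eq ?_
  rw [mul_pow, Real.sq_sqrt (by positivity)]
  simp only [norm_sq, re_SS, im_SS, sum_add_distrib, h, card_univ, Fintype.card_fun,
      Fintype.card_bool, Fintype.card_fin, Nat.cast_pow, Nat.cast_ofNat]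
  ring

theorem norm_sg (b : Bool) : ‖sg 𝕜 b‖ = 1 := by cases b <;> simp [sg]

/-- Rademacher coefficients at level `N` -/
noncomputable def rN (θ : (ℕ → Bool) → X →L[𝕜] 𝕜) (j N : ℕ) : X →L[𝕜] 𝕜 :=
  ((2 ^ N : ℝ)⁻¹ : 𝕜) • ∑ b : Fin N → Bool, sg 𝕜 (ex b j) • θ (ex b)

theorem norm_rN {θ : (ℕ → Bool) → X →L[𝕜] 𝕜} (h : ∀ b, ‖θ b‖ ≤ 1) (j N : ℕ) : ‖rN θ j N‖ ≤ 1 := by
  rw [rN, norm_smul, norm_inv, RCLike.norm_ofReal, abs_of_pos (by positivity),
    inv_mul_le_iff₀ (by positivity)]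
  refine (norm_sum_le _ _).trans ((sum_le_card_nsmul _ _ 1 fun b _ => ?_).trans_eq (by simp))
  rw [norm_smul, norm_sg, one_mul]; exact h _

theorem norm_sum_rN (θ : (ℕ → Bool) → X →L[𝕜] 𝕜) (N : ℕ) (F : Finset ℕ) (a : ℕ → 𝕜) (x : X) :
    ‖∑ j ∈ F, a j * rN θ j N x‖ = ‖∑ b : Fin N → Bool, θ (ex b) x * SS F a (ex b)‖ / 2 ^ N := by
  have : ∑ j ∈ F, a j * rN θ j N x =
      ((2 ^ N : ℝ)⁻¹ : 𝕜) * ∑ b : Fin N → Bool, θ (ex b) x * SS F a (ex b) := by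
    simp only [rN, SS, ContinuousLinearMap.smul_apply, ContinuousLinearMap.sum_apply, smul_eq_mul,
      mul_sum]
    exact sum_comm.trans (sum_congr rfl fun _ _ => sum_congr rfl fun _ _ => by ring)
  rw [this, norm_mul, norm_inv, RCLike.norm_ofReal, abs_of_pos (by positivity), inv_mul_eq_div]

theorem lower {θ : (ℕ → Bool) → X →L[𝕜] 𝕜} {d : ℝ} (hθ : Cantor θ d) (L : 𝕜 →ₗ[ℝ] ℝ)
    (hL : ∀ z, L z ≤ ‖z‖) {n : ℕ} {F : Finset ℕ} (hF : F ⊆ range n) (a : ℕ → 𝕜) :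
    ∃ x : X, ‖x‖ ≤ 1 ∧ ∀ N, d * ∑ b : Fin N → Bool, |L (SS F a (ex b))| -
      d / 4 * ∑ b : Fin N → Bool, ‖SS F a (ex b)‖ ≤
      ‖∑ b : Fin N → Bool, θ (ex b) x * SS F a (ex b)‖ := by
  obtain ⟨x, hx, h⟩ := hθ.2 n fun b => decide (0 ≤ L (SS F a (ex b)))
  refine ⟨x, hx, fun N => le_trans ?_ (hL _)⟩
  rw [map_sum, mul_sum, mul_sum, ← sum_sub_distrib]
  refine sum_le_sum fun b _ => ?_
  have h1 := h (ex b)
  have e : SS F a (ex fun i : Fin n => ex b i) = SS F a (ex b) :=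
    sum_congr rfl fun j hj => by rw [ex, dif_pos (mem_range.1 (hF hj))]
  simp only [e] at h1
  generalize SS F a (ex b) = s at *
  generalize θ (ex b) x = t at *
  have h2 := hL (-((t - d * sg 𝕜 (decide (0 ≤ L s))) * s))
  rw [norm_neg, norm_mul, neg_mul_eq_neg_mul, neg_sub, sub_mul, map_sub] at h2
  have h3 : L (d * sg 𝕜 (decide (0 ≤ L s)) * s) = d * |L s| := by
    rw [mul_assoc, ← RCLike.real_smul_eq_coe_mul, map_smul, smul_eq_mul]
    by_cases h : 0 ≤ L s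
    · simp [sg, h, abs_of_nonneg h]
    · simp [sg, h, abs_of_neg (not_le.1 h)]
  nlinarith [norm_nonneg s]

theorem exists_rho {θ : (ℕ → Bool) → X →L[𝕜] 𝕜} {d : ℝ} (hd : 0 < d) (hθ : Cantor θ d) :
    ∃ (ρ : ℕ → X →L[𝕜] 𝕜) (c : ℝ), 0 < c ∧
      (∀ (F : Finset ℕ) x, ∑ j ∈ F, ‖ρ j x‖ ^ 2 ≤ ‖x‖ ^ 2) ∧
      ∀ (F : Finset ℕ) (a : ℕ → 𝕜), c * √(∑ j ∈ F, ‖a j‖ ^ 2) ≤ ‖∑ j ∈ F, a j • ρ j‖ := by
  obtain ⟨κ, hκ, hk⟩ := khin
  have hU : (hyperfilter ℕ : Filter ℕ) ≤ atTop := Nat.hyperfilter_le_atTop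
  have h1 : ∀ j, ∃ ρ : X →L[𝕜] 𝕜, ∀ x, Tendsto (fun N => rN θ j N x) (hyperfilter ℕ) (𝓝 (ρ x)) := by
    intro j
    have : ∀ x, ∃ l, Tendsto (fun N => rN θ j N x) (hyperfilter ℕ) (𝓝 l) := fun x => by
      obtain ⟨l, -, hl⟩ := (isCompact_closedBall (0 : 𝕜) ‖x‖).ultrafilter_le_nhds
        ((hyperfilter ℕ).map fun N => rN θ j N x) (le_principal_iff.2 (mem_map.2 (univ_mem' fun N => by
          simpa using (rN θ j N).le_of_opNorm_le (norm_rN hθ.1 j N) x)))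
      exact ⟨l, hl⟩
    choose l hl using this
    exact ⟨ContinuousLinearMap.ofTendstoOfBoundedRange l (rN θ j) (tendsto_pi_nhds.2 hl)
      (isBounded_iff_forall_norm_le.2 ⟨1, by rintro _ ⟨N, rfl⟩; exact norm_rN hθ.1 j N⟩), hl⟩
  choose ρ hρ using h1
  have h2 : ∀ (F : Finset ℕ) (a : ℕ → 𝕜) x, Tendsto (fun N => ‖∑ j ∈ F, a j * rN θ j N x‖)
      (hyperfilter ℕ) (𝓝 ‖∑ j ∈ F, a j * ρ j x‖) :=
    fun F a x => (tendsto_finset_sum _ fun j _ => (hρ j x).const_mul _).norm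
  have h3 : ∀ F : Finset ℕ, ∀ᶠ N in hyperfilter ℕ, F ⊆ range N := fun F => by
    obtain ⟨n, hn⟩ := F.exists_nat_subset_range
    exact hU ((eventually_ge_atTop n).mono fun N h => hn.trans (range_mono h))
  refine ⟨ρ, d * κ / 4, by positivity, fun F x => ?_, fun F a => ?_⟩
  · have h4 : ‖∑ j ∈ F, starRingEnd 𝕜 (ρ j x) * ρ j x‖ ≤ ‖x‖ * √(∑ j ∈ F, ‖ρ j x‖ ^ 2) := by
      refine le_of_tendsto (h2 F _ x) ((h3 F).mono fun N hN => ?_)
      rw [norm_sum_rN, div_le_iff₀ (by positivity)]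
      refine (norm_sum_le _ _).trans ((sum_le_sum fun b _ => (norm_mul_le _ _).trans
        (mul_le_mul_of_nonneg_right (((θ _).le_of_opNorm_le (hθ.1 _) x).trans_eq (one_mul _))
          (norm_nonneg _))).trans ?_)
      rw [← mul_sum, mul_assoc, mul_comm _ (2 ^ N)]
      simpa using mul_le_mul_of_nonneg_left (sum_norm_SS hN fun j => starRingEnd 𝕜 (ρ j x))
        (norm_nonneg x)
    simp only [RCLike.conj_mul, ← RCLike.ofReal_pow, ← RCLike.ofReal_sum, RCLike.norm_ofReal] at h4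
    have h5 : 0 ≤ ∑ j ∈ F, ‖ρ j x‖ ^ 2 := by positivity
    rw [abs_of_nonneg h5] at h4
    nlinarith [Real.sq_sqrt h5, sq_nonneg (‖x‖ - √(∑ j ∈ F, ‖ρ j x‖ ^ 2))]
  · obtain ⟨n, hn⟩ := F.exists_nat_subset_range
    obtain ⟨x, hx, hx'⟩ := lower hθ RCLike.reLm (fun z => RCLike.re_le_norm z) hn a
    obtain ⟨y, hy, hy'⟩ := lower hθ RCLike.imLm (fun z => RCLike.im_le_norm z) hn a
    have h4 : ∀ x : X, ‖x‖ ≤ 1 → ‖∑ j ∈ F, a j * ρ j x‖ ≤ ‖∑ j ∈ F, a j • ρ j‖ := fun x hx => by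
      simpa using (∑ j ∈ F, a j • ρ j).unit_le_opNorm x hx
    have h5 : d * κ / 2 * √(∑ j ∈ F, ‖a j‖ ^ 2) ≤ ‖∑ j ∈ F, a j * ρ j x‖ + ‖∑ j ∈ F, a j * ρ j y‖ := by
      refine ge_of_tendsto ((h2 F a x).add (h2 F a y)) ((h3 F).mono fun N hN => ?_)
      have h6 : ∀ a : ℕ → ℝ, κ * √(∑ j ∈ F, a j ^ 2) * 2 ^ N ≤ ∑ b : Fin N → Bool, |SS F a (ex b)| := by
        intro a
        simpa only [SS_fin hN, ite_pow, zero_pow two_ne_zero, sum_fin hN (fun j => a j ^ 2),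
          le_div_iff₀ (show (0 : ℝ) < 2 ^ N by positivity)] using hk N fun j => if (j : ℕ) ∈ F then a j else 0
      have h7 : √(∑ j ∈ F, ‖a j‖ ^ 2) ≤
          √(∑ j ∈ F, RCLike.re (a j) ^ 2) + √(∑ j ∈ F, RCLike.im (a j) ^ 2) := by
        simp only [norm_sq, sum_add_distrib]
        refine Real.sqrt_le_iff.2 ⟨by positivity, ?_⟩
        rw [add_sq, Real.sq_sqrt (by positivity), Real.sq_sqrt (by positivity), add_right_comm]
        exact le_add_of_nonneg_right (by positivity)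
      have h8 : ∑ b : Fin N → Bool, ‖SS F a (ex b)‖ ≤ ∑ b : Fin N → Bool, |RCLike.re (SS F a (ex b))| +
          ∑ b : Fin N → Bool, |RCLike.im (SS F a (ex b))| := by
        rw [← sum_add_distrib]
        refine sum_le_sum fun b _ => le_of_sq_le_sq ?_ (by positivity)
        rw [norm_sq, add_sq, sq_abs, sq_abs]
        have : 0 ≤ 2 * |RCLike.re (SS F a (ex b))| * |RCLike.im (SS F a (ex b))| := by positivity
        linarith
      have h9 := h6 fun j => RCLike.re (a j)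
      have h10 := h6 fun j => RCLike.im (a j)
      have h11 := hx' N
      have h12 := hy' N
      simp only [RCLike.reLm_coe, RCLike.imLm_coe, ← re_SS, ← im_SS] at h9 h10 h11 h12
      rw [norm_sum_rN, norm_sum_rN, ← add_div, le_div_iff₀ (by positivity)]
      nlinarith [mul_le_mul_of_nonneg_left h7 (show 0 ≤ d * κ * 2 ^ N by positivity),
        mul_le_mul_of_nonneg_left h8 hd.le, mul_le_mul_of_nonneg_left (add_le_add h9 h10) hd.le]
    linarith [h4 x hx, h4 y hy]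

end Hil

open Topology in
theorem sq_of_cantor [CompleteSpace X] {θ : (ℕ → Bool) → X →L[𝕜] 𝕜} {d : ℝ} (hd : 0 < d)
    (hθ : Cantor θ d) : SQ 𝕜 X := by
  obtain ⟨ρ, c, hc, h1, h2⟩ := Hil.exists_rho hd hθ
  have h1' : ∀ x (F : Finset ℕ), ∑ j ∈ F, ‖ρ j x‖ ^ (2 : ENNReal).toReal ≤ ‖x‖ ^ (2 : ENNReal).toReal := by
    simpa using fun x F => h1 F x
  let T : X →L[𝕜] lp (fun _ : ℕ => 𝕜) 2 := LinearMap.mkContinuous
    { toFun := fun x => ⟨fun j => ρ j x, memℓp_gen' (h1' x)⟩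
      map_add' := fun x y => by ext j; simp
      map_smul' := fun a x => by ext j; simp } 1
    fun x => by simpa using lp.norm_le_of_forall_sum_le (by norm_num) (norm_nonneg x) (h1' x)
  have hT : ∀ x j, T x j = ρ j x := fun _ _ => rfl
  have hS := surj_of_dual T c hc fun g => by
    obtain ⟨z, rfl⟩ := (InnerProductSpace.toDual 𝕜 _).surjective g
    have hz := lp.hasSum_single (by norm_num) z
    have hc1 : Continuous fun z : lp (fun _ : ℕ => 𝕜) 2 => c * ‖InnerProductSpace.toDual 𝕜 _ z‖ := by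
      fun_prop
    have hc2 : Continuous fun z : lp (fun _ : ℕ => 𝕜) 2 =>
        ‖(InnerProductSpace.toDual 𝕜 _ z).comp T‖ := by fun_prop
    refine le_of_tendsto_of_tendsto' ((hc1.tendsto _).comp hz) ((hc2.tendsto _).comp hz) fun F => ?_
    simp only [Function.comp_apply]
    refine le_of_eq_of_le ?_ ((h2 F fun j => starRingEnd 𝕜 (z j)).trans_eq (congrArg _ ?_))
    · have := lp.norm_sum_single (p := 2) (by norm_num) z F
      simp only [ENNReal.toReal_ofNat, Real.rpow_ofNat] at this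
      rw [LinearIsometryEquiv.norm_map]; simp [← this]
    · ext x
      simp [sum_inner, lp.inner_single_left, hT, mul_comm]
  refine lemA (fun n => (n : 𝕜) • ρ n) (fun C => ?_) (Metric.dense_iff.2 fun x r hr => ?_)
  · obtain ⟨n, hn⟩ := exists_nat_gt (C / c)
    have := h2 {n} fun _ => 1
    simp only [norm_one, one_pow, Finset.sum_singleton, Real.sqrt_one, mul_one, one_smul] at this
    refine ⟨n, ?_⟩
    rw [norm_smul, RCLike.norm_natCast]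
    exact ((div_lt_iff₀ hc).1 hn).trans_le (by gcongr)
  · have hz := (tendsto_iff_norm_sub_tendsto_zero.1 (lp.hasSum_single (by norm_num) (T x))).const_mul
      (2 / c)
    obtain ⟨F, hF⟩ := (hz.eventually (gt_mem_nhds (by simpa using hr))).exists
    obtain ⟨y, hy, hy'⟩ := hS (∑ j ∈ F, lp.single 2 j (T x j) - T x)
    refine ⟨x + y, by simpa using hy'.trans_lt hF, ∑ j ∈ F, ‖((j : 𝕜) • ρ j) (x + y)‖, fun n => ?_⟩
    by_cases hn : n ∈ F
    · exact Finset.single_le_sum (f := fun j : ℕ => ‖((j : 𝕜) • ρ j) (x + y)‖) (fun _ _ => norm_nonneg _) hn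
    · have : ρ n (x + y) = 0 := by
        rw [← hT, map_add, hy, add_sub_cancel, lp.coeFn_sum, Finset.sum_apply]
        exact Finset.sum_eq_zero fun j hj => lp.single_apply_ne _ _ _ fun e => hn (e ▸ hj)
      rw [ContinuousLinearMap.smul_apply, this, smul_zero, norm_zero]
      positivity

end Crest.Agent.R114
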